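import Vale.Agent.P070ZA.Op

/-!
# The statement on coded Hilbert spaces
-/

set_option linter.unusedSectionVars false

namespace Vale.Agent.P070ZI

open Vale.Agent.P129B Vale.Agent.P070Z

universe v

variable {N : Type v} [ZM N]
  {R K : Type*} [Nm K R] [Field R] [LinearOrder R] [IsStrictOrderedRing R]
  [Field K] [Algebra R K] [KA R K] [StarRing K] [CX R K] [Coded N R] [RF N R] [Coded N K]
  [KF N R K] {H : Type*} [AddCommGroup H] [Module K H] [Nm H R] [Ip H K] [IA R K H] [Coded N H]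
  [HS N R K H] {L : Type*} [AddCommGroup L] [Module K L] [Nm L R] [Ip L K] [IA R K L] [Coded N L]
  [HS N R K L] {M : Type*} [AddCommGroup M] [Module K M] [Nm M R] [Ip M K] [IA R K M] [Coded N M]
  [HS N R K M]

/-- internal closed star subalgebras, not necessarily unital -/
structure NCS (A : Set (Op N K H)) : Prop where
  intl : Intl N A
  zero : (0 : Op N K H) ∈ A
  add : ∀ S ∈ A, ∀ T ∈ A, S + T ∈ A
  smul : ∀ c : K, ∀ T ∈ A, c • T ∈ A
  mul : ∀ S ∈ A, ∀ T ∈ A, S * T ∈ A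
  star : ∀ T ∈ A, star T ∈ A
  cld : Cld A

/-- representations of `A`, not necessarily unital -/
structure NRp (A : Set (Op N K H)) (π : Op N K H → Op N K L) : Prop where
  defF : DefF N π
  add : ∀ S ∈ A, ∀ T ∈ A, π (S + T) = π S + π T
  smul : ∀ c : K, ∀ T ∈ A, π (c • T) = c • π T
  mul : ∀ S ∈ A, ∀ T ∈ A, π (S * T) = π S * π T
  star : ∀ T ∈ A, π (star T) = star (π T)

/-- irreducible -/
def Irr (A : Set (Op N K H)) (π : Op N K H → Op N K L) : Prop :=
  (∃ T ∈ A, ∃ x, π T x ≠ 0) ∧ ∀ V : Set L, IsISub N K V → Cld V →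
    (∀ T ∈ A, ∀ x ∈ V, π T x ∈ V) → (∀ x ∈ V, x = 0) ∨ ∀ x, x ∈ V

/-- unitarily equivalent -/
def UEq (A : Set (Op N K H)) (π : Op N K H → Op N K L) (σ : Op N K H → Op N K M) : Prop :=
  ∃ W : L → M, DefF N W ∧ (∀ x y, W (x + y) = W x + W y) ∧ (∀ (c : K) x, W (c • x) = c • W x) ∧
    Function.Surjective W ∧ (∀ x y, ip (W x) (W y) = ip x y) ∧
    ∀ T ∈ A, ∀ x, W (π T x) = σ T (W x)

/-- compact -/
def Cpt (T : Op N K L) : Prop :=
  ∀ e : R, 0 < e → ∃ (n : NN N) (w : NN N → L), Intl N w ∧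
    ∀ x, nm x ≤ 1 → ∃ i, i < n ∧ nm (T x - w i) < e

/-- property (N) -/
def PN (A : Set (Op N K H)) : Prop :=
  (∃ T ∈ A, ∃ x, T x ≠ 0) ∧
    ∀ (L : Type v) [AddCommGroup L] [Module K L] [Nm L R] [Ip L K] [IA R K L] [Coded N L]
      [HS N R K L] (M : Type v) [AddCommGroup M] [Module K M] [Nm M R] [Ip M K] [IA R K M]
      [Coded N M] [HS N R K M] (π : Op N K H → Op N K L) (σ : Op N K H → Op N K M),
      NRp A π → NRp A σ → Irr A π → Irr A σ → UEq A π σ

/-- isomorphic to the compact operators -/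
def IsK (A : Set (Op N K H)) : Prop :=
  ∃ (L : Type v) (_ : AddCommGroup L) (_ : Module K L) (_ : Nm L R) (_ : Ip L K) (_ : IA R K L)
    (_ : Coded N L) (_ : HS N R K L) (π : Op N K H → Op N K L),
    NRp A π ∧ Set.InjOn π A ∧ ∀ U : Op N K L, Cpt U ↔ ∃ T ∈ A, π T = U

variable (N R K) in
/-- a counterexample -/
def Main : Prop :=
  ∃ (H : Type v) (_ : AddCommGroup H) (_ : Module K H) (_ : Nm H R) (_ : Ip H K) (_ : IA R K H)
    (_ : Coded N H) (_ : HS N R K H) (A : Set (Op N K H)), NCS A ∧ PN A ∧ ¬ IsK A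

variable (N) in
/-- a counterexample over all scalars -/
def AllMain : Prop :=
  ∀ (R K : Type v) [Nm K R] [Field R] [LinearOrder R] [IsStrictOrderedRing R] [Field K]
    [Algebra R K] [KA R K] [StarRing K] [CX R K] [Coded N R] [RF N R] [Coded N K] [KF N R K],
    Main N R K

end Vale.Agent.P070ZI
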