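import Vale.Agent.P070ZI.Hil
import Vale.Agent.P070ZI.Main
import Vale.Agent.P070Z34.Hil
import Vale.Agent.P070Z37.Wrap

/-!
# From the statement on coded Hilbert spaces to the statement in the model
-/

set_option linter.unusedSectionVars false

namespace Vale.Agent.P070ZI

open Vale.Agent.P323.Z Vale.Agent.P129B Vale.Agent.P129BP Vale.Agent.P129Z.S Vale.Agent.P070Z

universe v

variable {N : Type v} [ZM N] {R : Type*} [Field R] [LinearOrder R] [IsStrictOrderedRing R]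
  [Coded N R] [RF N R] [SqR R] {R₀ : Reals N} {K₀ : Scalars N}

instance ccx : CX R (CC R) where
  I_mul := by
    change (⟨0, 1⟩ : CC R) * ⟨0, 1⟩ = -1
    ext <;> simp [QuadraticAlgebra.re_one, QuadraticAlgebra.im_one]
  star_eq z := by
    obtain ⟨a, b⟩ := z
    rw [conj_cc, QuadraticAlgebra.star_mk, zero_mul, add_zero]

section Inst

variable {H₀ : Hilb N} {hR : RepR R R₀} {hK : RepK (CC R) (nm : CC R → R) K₀}
  {h : IsHilbert ZM.E R₀ K₀ H₀}

noncomputable instance : Ip (HT hR hK h) (CC R) := ⟨HT.ip⟩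

instance : IA R (CC R) (HT hR hK h) where
  ip_add := (HT.rep.isIP hR hK h).add
  ip_smul := (HT.rep.isIP hR hK h).smul
  ip_star x y := (CX.star_eq _).trans ((HT.rep.isIP hR hK h).conj x y).symm
  ip_self := (HT.rep.isIP hR hK h).self

instance : HS N R (CC R) (HT hR hK h) where
  defIp := HT.rep.defF

theorem HT.rep' : RepH (ip : HT hR hK h → HT hR hK h → CC R) H₀ := HT.rep

end Inst

variable {H : Type*} [AddCommGroup H] [Module (CC R) H] [Nm H R] [Ip H (CC R)] [IA R (CC R) H]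
  [Coded N H] [HS N R (CC R) H] {H₀ : Hilb N}
  {L : Type*} [AddCommGroup L] [Module (CC R) L] [Nm L R] [Ip L (CC R)] [IA R (CC R) L]
  [Coded N L] [HS N R (CC R) L] {L₀ : Hilb N}
  {M : Type*} [AddCommGroup M] [Module (CC R) M] [Nm M R] [Ip M (CC R)] [IA R (CC R) M]
  [Coded N M] [HS N R (CC R) M] {M₀ : Hilb N}

theorem isIP_ip : IsIP (ip : H → H → CC R) :=
  ⟨ip_add_right, ip_smul_right, fun x y => (star_ip x y).symm.trans (CX.star_eq _), ip_self⟩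

/-- the graph of an operator -/
noncomputable def G (T : Op N (CC R) H) : N := gr N (fun x => T x)

theorem repG (T : Op N (CC R) H) : RepF N (fun x => T x) (G T) := ⟨T.defF, rfl⟩

@[fun_prop] theorem defF_G {α : Type*} [Coded N α] {f : α → Op N (CC R) H} (hf : DefF N f) :
    DefF N (fun a => G (f a)) :=
  DefF.code (DefF.setOf (P := fun (a : α) (p : H × H) => f a p.1 = p.2) (by fun_prop))

theorem G_inj {S T : Op N (CC R) H} (h : G S = G T) : S = T :=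
  Op.ext fun x => congrFun ((repG S).unique (h ▸ repG T)) x

theorem oper_G (hH : RepH (ip : H → H → CC R) H₀) (hR : RepR R R₀)
    (hK : RepK (CC R) (nm : CC R → R) K₀) (T : Op N (CC R) H) : IsOper ZM.E R₀ K₀ H₀ (G T) :=
  ((repG T).oper hH hR hK).2 ⟨⟨map_add T, map_smul T⟩, T.bdd⟩

theorem exists_G (hH : RepH (ip : H → H → CC R) H₀) (hR : RepR R R₀)
    (hK : RepK (CC R) (nm : CC R → R) K₀) {T₀ : N} (h : IsOper ZM.E R₀ K₀ H₀ T₀) :
    ∃ T : Op N (CC R) H, G T = T₀ := by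
  obtain ⟨f, hf⟩ := exists_repF hH hH h.1.1
  obtain ⟨⟨h1, h2⟩, C, h3⟩ := (hf.oper hH hR hK).1 h
  have hi : P070Z34.IsIP (ip : H → H → CC R) :=
    ⟨isIP_ip.add, isIP_ip.smul, isIP_ip.conj, isIP_ip.self⟩
  obtain ⟨g, hg, -, -, -, h4⟩ := P070Z34.exists_adjoint (N := N) hi hi HS.defIp HS.defIp hf.1 h1 h2
    (abs_nonneg C) (bd_abs h3)
  obtain ⟨u, hu⟩ := exists_op (N := N) f g hf.1 hg h4 C h3
  exact ⟨u, by rw [G, funext hu, hf.2]⟩

/-- the set of the graphs -/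
noncomputable def GA (A : Set (Op N (CC R) H)) : N := code N ((fun T => G T) '' A)

variable {A : Set (Op N (CC R) H)}

theorem mem_GA (hA : Intl N A) {T₀ : N} : ZM.E T₀ (GA A) ↔ ∃ T ∈ A, G T = T₀ :=
  code_mem_code (intl_image (defF_G DefF.id) A) (a := T₀) inferInstance

theorem G_mem (hA : Intl N A) {T : Op N (CC R) H} (h : T ∈ A) : ZM.E (G T) (GA A) :=
  (mem_GA hA).2 ⟨T, h, rfl⟩

theorem isCStar_GA (hH : RepH (ip : H → H → CC R) H₀) (hR : RepR R R₀)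
    (hK : RepK (CC R) (nm : CC R → R) K₀) (hA : NCS A) : IsCStar ZM.E R₀ K₀ H₀ (GA A) := by
  have hI := hA.intl
  refine ⟨fun T hT => ?_, ⟨_, G_mem hI hA.zero, hH.all.2 fun a => ?_⟩, fun S T hS₀ hT₀ => ?_,
    fun c T hc hT₀ => ?_, fun S T hS₀ hT₀ => ?_, fun T hT₀ => ?_, fun T hT h => ?_⟩
  · obtain ⟨T, -, rfl⟩ := (mem_GA hI).1 hT
    exact oper_G hH hR hK T
  · rw [(repG _).ap, hH.sp.zero, Op.zero_apply]
  · obtain ⟨S, hS, rfl⟩ := (mem_GA hI).1 hS₀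
    obtain ⟨T, hT, rfl⟩ := (mem_GA hI).1 hT₀
    exact ⟨_, G_mem hI (hA.add S hS T hT), ((repG S).isAdd (repG T) (repG _) hH).2 fun _ => rfl⟩
  · obtain ⟨c, rfl⟩ := hK.car.exT hc
    obtain ⟨T, hT, rfl⟩ := (mem_GA hI).1 hT₀
    exact ⟨_, G_mem hI (hA.smul c T hT), ((repG T).isSMul (repG _) hH c).2 fun _ => rfl⟩
  · obtain ⟨S, hS, rfl⟩ := (mem_GA hI).1 hS₀
    obtain ⟨T, hT, rfl⟩ := (mem_GA hI).1 hT₀
    exact ⟨_, G_mem hI (hA.mul S hS T hT), ((repG S).isMul (repG T) (repG _) hH).2 fun _ => rfl⟩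
  · obtain ⟨T, hT, rfl⟩ := (mem_GA hI).1 hT₀
    exact ⟨_, G_mem hI (hA.star T hT), ((repG T).isAdj (repG _) hH).2 (ip_star_left T)⟩
  · obtain ⟨T, rfl⟩ := exists_G hH hR hK hT
    refine G_mem hI (hA.cld fun e he => ?_)
    obtain ⟨S, hS₀, h1⟩ := (RepR.allPos hR).1 h (e / 2) (half_pos he)
    obtain ⟨S, hS, rfl⟩ := (mem_GA hI).1 hS₀
    refine ⟨S, hS, (Op.nm_le_of_ball fun x hx => ?_).trans_lt (half_lt_self he)⟩
    have h2 := (hH.inBall hR).1 h1 x hx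
    rw [(repG T).ap, (repG S).ap, hH.sp.close hR] at h2
    exact h2.le

theorem import_rep (hH : RepH (ip : H → H → CC R) H₀) (hL : RepH (ip : L → L → CC R) L₀)
    (hR : RepR R R₀) (hK : RepK (CC R) (nm : CC R → R) K₀) (hA : NCS A) {π₀ : N}
    (h : IsRep ZM.E R₀ K₀ H₀ (GA A) L₀ π₀) :
    ∃ π : Op N (CC R) H → Op N (CC R) L, NRp A π ∧ ∀ T ∈ A, ap ZM.E π₀ (G T) = G (π T) := by
  have hI := hA.intl
  obtain ⟨π, h1, h2⟩ := exists_intl_choiceT (N := N)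
    (R := fun (T : Op N (CC R) H) (U : Op N (CC R) L) => T ∈ A → ap ZM.E π₀ (G T) = G U)
    (by fun_prop) fun T => by
      by_cases hT : T ∈ A
      · obtain ⟨U, hU⟩ := exists_G hL hR hK (h.oper _ (G_mem hI hT))
        exact ⟨U, fun _ => hU.symm⟩
      · exact ⟨0, fun h => absurd h hT⟩
  refine ⟨π, ⟨DefF.ofIntl π, fun S hS T hT => ?_, fun c T hT => ?_, fun S hS T hT => ?_,
    fun T hT => ?_⟩, h2⟩
  · have h3 := h.add _ _ _ (G_mem hI hS) (G_mem hI hT) (G_mem hI (hA.add S hS T hT))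
      (((repG S).isAdd (repG T) (repG _) hH).2 fun _ => rfl)
    rw [h2 _ hS, h2 _ hT, h2 _ (hA.add S hS T hT)] at h3
    exact Op.ext (((repG _).isAdd (repG _) (repG _) hL).1 h3)
  · have h3 := h.smul _ _ _ (hK.car.code_mem c) (G_mem hI hT) (G_mem hI (hA.smul c T hT))
      (((repG T).isSMul (repG _) hH c).2 fun _ => rfl)
    rw [h2 _ hT, h2 _ (hA.smul c T hT)] at h3
    exact Op.ext (((repG _).isSMul (repG _) hL c).1 h3)
  · have h3 := h.mul _ _ _ (G_mem hI hS) (G_mem hI hT) (G_mem hI (hA.mul S hS T hT))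
      (((repG S).isMul (repG T) (repG _) hH).2 fun _ => rfl)
    rw [h2 _ hS, h2 _ hT, h2 _ (hA.mul S hS T hT)] at h3
    exact Op.ext (((repG _).isMul (repG _) (repG _) hL).1 h3)
  · have h3 := h.adj _ _ (G_mem hI hT) (G_mem hI (hA.star T hT))
      (((repG T).isAdj (repG _) hH).2 (ip_star_left T))
    rw [h2 _ hT, h2 _ (hA.star T hT)] at h3
    exact eq_star (((repG _).isAdj (repG _) hL).1 h3)

theorem import_irr (hL : RepH (ip : L → L → CC R) L₀) (hR : RepR R R₀)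
    (hK : RepK (CC R) (nm : CC R → R) K₀) (hI : Intl N A) {π₀ : N}
    {π : Op N (CC R) H → Op N (CC R) L} (hπ : ∀ T ∈ A, ap ZM.E π₀ (G T) = G (π T))
    (h : IsIrred ZM.E R₀ K₀ (GA A) L₀ π₀) : Irr A π := by
  obtain ⟨⟨T, x, hT₀, hx, h1⟩, h2⟩ := h
  obtain ⟨T, hT, rfl⟩ := (mem_GA hI).1 hT₀
  obtain ⟨x, rfl⟩ := hL.sp.car.exT hx
  rw [hπ T hT, (repG _).ap, hL.sp.zero] at h1
  refine ⟨⟨T, hT, x, fun e => h1 (congrArg (code N) e)⟩, fun V hV hc hi => ?_⟩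
  have hVI := hV.intl
  have hm : ∀ x : L, ZM.E (code N x) (code N V) ↔ x ∈ V := fun x => code_mem_code hVI inferInstance
  refine (h2 (code N V) ((hL.sp.subspace hK hVI).2 hV) ((hL.sp.closedIn hR hVI).2 fun x hx => hc hx)
    fun S y hS₀ hy₀ => ?_).imp (fun h3 y hy => ?_) fun h3 y => (hm y).1 (h3 _ (hL.sp.car.code_mem y))
  · obtain ⟨S, hS, rfl⟩ := (mem_GA hI).1 hS₀
    obtain ⟨y, hy, rfl⟩ := (mem_code_set hVI).1 hy₀
    rw [hπ S hS, (repG _).ap, hm]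
    exact hi S hS y hy
  · exact code_injT ((h3 _ ((hm y).2 hy)).trans hL.sp.zero)

theorem export_ueq (hL : RepH (ip : L → L → CC R) L₀) (hM : RepH (ip : M → M → CC R) M₀)
    (hK : RepK (CC R) (nm : CC R → R) K₀) (hI : Intl N A) {π₀ σ₀ : N}
    {π : Op N (CC R) H → Op N (CC R) L} {σ : Op N (CC R) H → Op N (CC R) M}
    (hπ : ∀ T ∈ A, ap ZM.E π₀ (G T) = G (π T)) (hσ : ∀ T ∈ A, ap ZM.E σ₀ (G T) = G (σ T))
    (h : UEq A π σ) : UnitEquiv ZM.E K₀ (GA A) L₀ π₀ M₀ σ₀ := by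
  obtain ⟨W, h1, h2, h3, h4, h5, h6⟩ := h
  have hW : RepF N W (gr N W) := ⟨h1, rfl⟩
  refine ⟨_, hW.unitary hL hM hK h2 h3 h4 h5, fun T x hT₀ hx => ?_⟩
  obtain ⟨T, hT, rfl⟩ := (mem_GA hI).1 hT₀
  obtain ⟨x, rfl⟩ := hL.sp.car.exT hx
  rw [hπ T hT, hσ T hT, (repG _).ap, hW.ap, hW.ap, (repG _).ap, h6 T hT]

end Vale.Agent.P070ZI

namespace Vale.Agent.P070ZI

open Vale.Agent.P323.Z Vale.Agent.P129B Vale.Agent.P129BP Vale.Agent.P129Z.S Vale.Agent.P070Z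

universe v

theorem codedCounter_of_allMain {N : Type v} [ZM N] (hm : AllMain N) : P070Z37.CodedCounter N := by
  intro R _ _ _ _ _ _ R₀ K₀ hR hK
  obtain ⟨H, _, _, _, _, _, _, _, A, hA, ⟨⟨T, hT, x, hx⟩, hN⟩, hC⟩ := hm R (CC R)
  have hI := hA.intl
  obtain ⟨H₀, h1, hH⟩ := exists_hilb (N := N) hR hK (isIP_ip (H := H)) HS.defIp
  refine ⟨H₀, GA A, h1, isCStar_GA hH hR hK hA, ⟨⟨_, _, G_mem hI hT, hH.sp.car.code_mem x, ?_⟩,
    fun L π₀ M σ₀ hL hM hπ hσ iπ iσ => ?_⟩, ?_⟩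
  · rw [(repG T).ap, hH.sp.zero]
    exact fun e => hx (code_injT e)
  · have rL := HT.rep' (hR := hR) (hK := hK) (h := hL)
    have rM := HT.rep' (hR := hR) (hK := hK) (h := hM)
    obtain ⟨π, h2, h3⟩ := import_rep hH rL hR hK hA hπ
    obtain ⟨σ, h4, h5⟩ := import_rep hH rM hR hK hA hσ
    exact export_ueq rL rM hK hI h3 h5 (hN _ _ π σ h2 h4 (import_irr rL hR hK hI h3 iπ)
      (import_irr rM hR hK hI h5 iσ))
  · rintro ⟨L, π₀, hL, hπ, h2, h3⟩
    have rL := HT.rep' (hR := hR) (hK := hK) (h := hL)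
    obtain ⟨π, h4, h5⟩ := import_rep hH rL hR hK hA hπ
    refine hC ⟨HT hR hK hL, inferInstance, inferInstance, inferInstance, inferInstance,
      inferInstance, inferInstance, inferInstance, π, h4, fun S hS T hT e => ?_, fun U => ?_⟩
    · exact G_inj (h2 _ _ (G_mem hI hS) (G_mem hI hT) (by rw [h5 S hS, h5 T hT, e]))
    · refine (((repG U).compact rL hR).symm.trans (h3 _ (oper_G rL hR hK U))).trans ⟨?_, ?_⟩
      · rintro ⟨T, hT₀, e⟩
        obtain ⟨T, hT, rfl⟩ := (mem_GA hI).1 hT₀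
        exact ⟨T, hT, G_inj ((h5 T hT).symm.trans e)⟩
      · rintro ⟨T, hT, rfl⟩
        exact ⟨_, G_mem hI hT, h5 T hT⟩

/-- The statement in every model of ZFC from the statement on coded Hilbert spaces. -/
theorem counter_of_allMain (h : ∀ (N : Type v) [ZM N], AllMain N) {M : Type v}
    {E : M → M → Prop} (hE : IsZFCModel E) : Counter E :=
  P070Z37.counter_of_zm (fun N _ => codedCounter_of_allMain (h N)) hE

end Vale.Agent.P070ZI
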