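import Vale.Agent.P129BP.Main
import Vale.Agent.P070Z.Stmt

/-!
# Hilbert spaces and operators of the statement, and coded structures
-/

set_option linter.unusedSectionVars false

namespace Vale.Agent.P070ZI

open Vale.Agent.P323.Z Vale.Agent.P129B Vale.Agent.P129BP Vale.Agent.P129Z.S Vale.Agent.P070Z

universe v

variable {N : Type v} [ZM N] {R : Type*} [Field R] [LinearOrder R] [IsStrictOrderedRing R]
  [Coded N R] [RF N R] [SqR R] {R₀ : Reals N} {K₀ : Scalars N}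

theorem fun_ext {f g A B C : N} (hf : IsFunction ZM.E f A B) (hg : IsFunction ZM.E g A C)
    (h : ∀ x, x ∈ A → ap ZM.E f x = ap ZM.E g x) : f = g := by
  refine ext fun p => ⟨fun hp => ?_, fun hp => ?_⟩
  · obtain ⟨x, y, hx, -, rfl⟩ := (isFunction_iff.1 hf).1 p hp
    rw [← (fun_mem hf hp).2.2, h x hx]
    exact fun_op_ap hg hx
  · obtain ⟨x, y, hx, -, rfl⟩ := (isFunction_iff.1 hg).1 p hp
    rw [← (fun_mem hg hp).2.2, ← h x hx]
    exact fun_op_ap hf hx

theorem code_cc (a b : R) : opair ZM.E (code N a) (code N b) = code N (⟨a, b⟩ : CC R) :=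
  opair_eq _ _

theorem conj_cc (a b : R) : KA.conj (⟨a, b⟩ : CC R) = ⟨a, -b⟩ :=
  KA.ext (by rw [KA.re_conj]; rfl) (by rw [KA.im_conj]; rfl)

theorem ofR_cc (a : R) : algebraMap R (CC R) a = ⟨a, 0⟩ := rfl

/-- an inner product -/
structure IsIP {H : Type*} [AddCommGroup H] [Module (CC R) H] [Nm H R] (ip : H → H → CC R) :
    Prop where
  add : ∀ x y z, ip x (y + z) = ip x y + ip x z
  smul : ∀ c x y, ip x (c • y) = c * ip x y
  conj : ∀ x y, ip y x = KA.conj (ip x y)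
  self : ∀ x, ip x x = algebraMap R (CC R) (nm x ^ 2)

/-- `H₀` represents the space `H` with the inner product `ip`. -/
structure RepH {H : Type*} [Coded N H] [AddCommGroup H] [Module (CC R) H] [Nm H R]
    (ip : H → H → CC R) (H₀ : Hilb N) : Prop where
  sp : RepX (CC R) H (nm : H → R) H₀.toSpace
  inner : ∀ a b : H, ap2 ZM.E H₀.inner (code N a) (code N b) = code N (ip a b)

section Import

variable {H₀ : Hilb N}

/-- the points of a Hilbert space of the model -/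
def HT (hR : RepR R R₀) (hK : RepK (CC R) (nm : CC R → R) K₀) (h : IsHilbert ZM.E R₀ K₀ H₀) :
    Type v := XT hR hK h.banach

namespace HT

variable {hR : RepR R R₀} {hK : RepK (CC R) (nm : CC R → R) K₀} {h : IsHilbert ZM.E R₀ K₀ H₀}

noncomputable instance : Coded N (HT hR hK h) := inferInstanceAs (Coded N (XT hR hK h.banach))
instance tot : Tot N (HT hR hK h) := inferInstanceAs (Tot N (XT hR hK h.banach))
noncomputable instance : AddCommGroup (HT hR hK h) :=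
  inferInstanceAs (AddCommGroup (XT hR hK h.banach))
noncomputable instance : Module (CC R) (HT hR hK h) :=
  inferInstanceAs (Module (CC R) (XT hR hK h.banach))
noncomputable instance : Nm (HT hR hK h) R := ⟨XT.nrm (h := h.banach)⟩

theorem repX : RepX (CC R) (HT hR hK h) (nm : HT hR hK h → R) H₀.toSpace :=
  XT.rep (hR := hR) (hK := hK) (h := h.banach)

instance : NA R (CC R) (HT hR hK h) :=
  ⟨repX.nm_add hR h.banach, repX.nm_smul hR hK h.banach, repX.eq_zero hR h.banach⟩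

instance : NS N R (CC R) (HT hR hK h) :=
  { defAdd := repX.defAdd, defSMul := repX.defSMul, defNm := ⟨repX.defNorm⟩ }

instance : Cpl N R (HT hR hK h) := cmp_iff.1 (repX.cmp hR h.banach)

/-- the inner product -/
noncomputable def ip (x y : HT hR hK h) : CC R :=
  (hK.car.exT (ap2_mem h.inner_op (repX.car.code_mem x) (repX.car.code_mem y))).choose

theorem rep : RepH (ip : HT hR hK h → _) H₀ :=
  ⟨repX, fun x y =>
    (hK.car.exT (ap2_mem h.inner_op (repX.car.code_mem x) (repX.car.code_mem y))).choose_spec.symm⟩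

end HT

end Import

variable {H : Type*} [Coded N H] [AddCommGroup H] [Module (CC R) H] [Nm H R] [NS N R (CC R) H]
  {ip : H → H → CC R} {H₀ : Hilb N}
  {L : Type*} [Coded N L] [AddCommGroup L] [Module (CC R) L] [Nm L R] [NS N R (CC R) L]
  {jp : L → L → CC R} {L₀ : Hilb N}

theorem RepH.defF (hH : RepH ip H₀) : DefF N (fun p : H × H => ip p.1 p.2) :=
  defF_of_code (F := fun p : H × H => ap2 ZM.E H₀.inner (code N p.1) (code N p.2))
    (fun _ _ => inferInstance) (by fun_prop) fun _ _ => hH.inner _ _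

theorem RepH.isIP (hH : RepH ip H₀) (hR : RepR R R₀) (hK : RepK (CC R) (nm : CC R → R) K₀)
    (h : IsHilbert ZM.E R₀ K₀ H₀) : IsIP ip := by
  have c : ∀ x : H, ZM.E (code N x) H₀.car := fun x => hH.sp.car.code_mem x
  have r : ∀ x : R, ZM.E (code N x) R₀.car := fun x => hR.car.code_mem x
  refine ⟨fun x y z => ?_, fun a x y => ?_, fun x y => ?_, fun x => ?_⟩
  · have := h.inner_add _ _ _ (c x) (c y) (c z)
    rw [hH.sp.add, hH.inner, hH.inner, hH.inner, hK.add] at this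
    exact code_injT this
  · have := h.inner_smul _ _ _ (hK.car.code_mem a) (c x) (c y)
    rw [hH.sp.smul, hH.inner, hH.inner, hK.mul] at this
    exact code_injT this
  · have := h.inner_conj _ _ _ _ _ (c x) (c y) (r (ip x y).re) (r (ip x y).im) (r (-(ip x y).im))
      (by rw [hR.add, add_neg_cancel, hR.zero]) (by rw [hH.inner, code_cc])
    rw [hH.inner, code_cc, ← conj_cc] at this
    exact code_injT this
  · have := h.inner_self _ (c x)
    rw [hH.inner, hH.sp.norm, hR.mul, hR.zero, code_cc, ← ofR_cc, ← sq] at this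
    exact code_injT this

/-- A coded Hilbert space is represented by a Hilbert space of the model. -/
theorem exists_hilb [NA R (CC R) H] [hc : Cpl N R H] (hR : RepR R R₀)
    (hK : RepK (CC R) (nm : CC R → R) K₀) (hi : IsIP ip)
    (hd : DefF N (fun p : H × H => ip p.1 p.2)) :
    ∃ H₀ : Hilb N, IsHilbert ZM.E R₀ K₀ H₀ ∧ RepH ip H₀ := by
  obtain ⟨X₀, h1, hX⟩ := exists_space (ne := (nm : H → R)) hR hK DefF.id.nm NA.eq_zero_of_nm
    NA.nm_smul NA.nm_add (cmp_iff.2 hc)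
  let H₀ : Hilb N := ⟨X₀, gr N (fun p : H × H => ip p.1 p.2)⟩
  have hH : RepH ip H₀ := ⟨hX, fun a b => ap2_gr hd a b⟩
  have he : ∀ x, ZM.E x H₀.car → ∃ a : H, code N a = x := fun x hx => hX.car.exT hx
  refine ⟨H₀, ⟨h1, isOp2_gr hd hX.car hX.car hK.car, ?_, ?_, ?_, ?_⟩, hH⟩
  · intro x y z hx hy hz
    obtain ⟨a, rfl⟩ := he x hx
    obtain ⟨b, rfl⟩ := he y hy
    obtain ⟨c, rfl⟩ := he z hz
    rw [hH.sp.add, hH.inner, hH.inner, hH.inner, hK.add, hi.add]
  · intro x y z hx hy hz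
    obtain ⟨a, rfl⟩ := hK.car.exT hx
    obtain ⟨b, rfl⟩ := he y hy
    obtain ⟨c, rfl⟩ := he z hz
    rw [hH.sp.smul, hH.inner, hH.inner, hK.mul, hi.smul]
  · intro x y a b c hx hy ha hb hc' h2 h3
    obtain ⟨x, rfl⟩ := he x hx
    obtain ⟨y, rfl⟩ := he y hy
    obtain ⟨a, rfl⟩ := hR.car.exT ha
    obtain ⟨b, rfl⟩ := hR.car.exT hb
    obtain ⟨c, rfl⟩ := hR.car.exT hc'
    rw [hR.add, hR.zero] at h2
    rw [hH.inner, code_cc] at h3
    rw [hH.inner, code_cc, hi.conj, code_injT h3, conj_cc, neg_eq_of_add_eq_zero_right (code_injT h2)]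
  · intro x hx
    obtain ⟨x, rfl⟩ := he x hx
    rw [hH.inner, hH.sp.norm, hR.mul, hR.zero, code_cc, ← ofR_cc, ← sq, hi.self]

/-- `T` is the graph of `f`. -/
def RepF (N : Type v) [ZM N] {H L : Type*} [Coded N H] [Coded N L] (f : H → L) (T : N) : Prop :=
  DefF N f ∧ T = gr N f

theorem RepF.ap {H L : Type*} [Coded N H] [Coded N L] [Tot N H] [Tot N L] {f : H → L} {T : N}
    (h : RepF N f T) (x : H) : ap ZM.E T (code N x) = code N (f x) := h.2 ▸ ap_gr h.1 x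

theorem RepF.isFunction {f : H → L} {T : N} (h : RepF N f T) (hH : RepH ip H₀) (hL : RepH jp L₀) :
    IsFunction ZM.E T H₀.car L₀.car := h.2 ▸ isFunction_gr h.1 hH.sp.car hL.sp.car

theorem exists_repF (hH : RepH ip H₀) (hL : RepH jp L₀) {T : N}
    (h : IsFunction ZM.E T H₀.car L₀.car) : ∃ f : H → L, RepF N f T := by
  obtain ⟨f, h1, h2⟩ := exists_fun_of_fun hH.sp.car hL.sp.car h
  have h3 := DefF.ofIntl (N := N) f
  refine ⟨f, h3, fun_ext h (isFunction_gr h3 hH.sp.car hL.sp.car) fun x hx => ?_⟩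
  obtain ⟨a, rfl⟩ := hH.sp.car.exT hx
  rw [h2, ap_gr h3]

theorem RepF.unique {H L : Type*} [Coded N H] [Coded N L] [Tot N H] [Tot N L] {f g : H → L}
    {T : N} (h : RepF N f T) (h' : RepF N g T) : f = g :=
  funext fun x => code_injT ((h.ap x).symm.trans (h'.ap x))

theorem RepF.linear {f : H → L} {T : N} (h : RepF N f T) (hH : RepH ip H₀) (hL : RepH jp L₀)
    (hK : RepK (CC R) (nm : CC R → R) K₀) : IsLinear ZM.E K₀ H₀ L₀ T ↔
      (∀ x y, f (x + y) = f x + f y) ∧ ∀ (c : CC R) x, f (c • x) = c • f x := by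
  constructor
  · rintro ⟨-, h1, h2⟩
    refine ⟨fun x y => ?_, fun c x => ?_⟩
    · have := h1 _ _ (hH.sp.car.code_mem x) (hH.sp.car.code_mem y)
      rw [hH.sp.add, h.ap, h.ap, h.ap, hL.sp.add] at this
      exact code_injT this
    · have := h2 _ _ (hK.car.code_mem c) (hH.sp.car.code_mem x)
      rw [hH.sp.smul, h.ap, h.ap, hL.sp.smul] at this
      exact code_injT this
  · rintro ⟨h1, h2⟩
    refine ⟨h.isFunction hH hL, fun x y hx hy => ?_, fun c x hc hx => ?_⟩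
    · obtain ⟨a, rfl⟩ := hH.sp.car.exT hx
      obtain ⟨b, rfl⟩ := hH.sp.car.exT hy
      rw [hH.sp.add, h.ap, h.ap, h.ap, hL.sp.add, h1]
    · obtain ⟨a, rfl⟩ := hK.car.exT hc
      obtain ⟨b, rfl⟩ := hH.sp.car.exT hx
      rw [hH.sp.smul, h.ap, h.ap, hL.sp.smul, h2]

theorem RepF.oper {f : H → H} {T : N} (h : RepF N f T) (hH : RepH ip H₀) (hR : RepR R R₀)
    (hK : RepK (CC R) (nm : CC R → R) K₀) : IsOper ZM.E R₀ K₀ H₀ T ↔
      ((∀ x y, f (x + y) = f x + f y) ∧ ∀ (c : CC R) x, f (c • x) = c • f x) ∧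
        ∃ C : R, ∀ x, nm (f x) ≤ C * nm x := by
  refine and_congr (h.linear hH hH hK) ⟨?_, ?_⟩
  · rintro ⟨C, hC, h1⟩
    obtain ⟨C, rfl⟩ := hR.car.exT hC
    refine ⟨C, fun x => ?_⟩
    have := h1 _ (hH.sp.car.code_mem x)
    rwa [h.ap, hH.sp.norm, hH.sp.norm, hR.mul, hR.le] at this
  · rintro ⟨C, h1⟩
    refine ⟨_, hR.car.code_mem C, fun x hx => ?_⟩
    obtain ⟨a, rfl⟩ := hH.sp.car.exT hx
    rw [h.ap, hH.sp.norm, hH.sp.norm, hR.mul, hR.le]
    exact h1 a

theorem RepH.all (hH : RepH ip H₀) {P : N → Prop} :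
    (∀ x, ZM.E x H₀.car → P x) ↔ ∀ a : H, P (code N a) :=
  ⟨fun h a => h _ (hH.sp.car.code_mem a), fun h x hx => by
    obtain ⟨a, rfl⟩ := hH.sp.car.exT hx
    exact h a⟩

theorem code_eq_iff {α : Type*} [Coded N α] [Tot N α] {a b : α} :
    code N a = code N b ↔ a = b := ⟨code_injT, fun h => h ▸ rfl⟩

variable {f g k : H → H} {S T U : N}

theorem RepF.isAdd (hf : RepF N f S) (hg : RepF N g T) (hk : RepF N k U) (hH : RepH ip H₀) :
    IsAdd ZM.E H₀ S T U ↔ ∀ x, k x = f x + g x := by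
  simp only [IsAdd, hH.all, hf.ap, hg.ap, hk.ap, hH.sp.add, code_eq_iff]

theorem RepF.isSMul (hg : RepF N g T) (hk : RepF N k U) (hH : RepH ip H₀) (c : CC R) :
    IsSMul ZM.E H₀ (code N c) T U ↔ ∀ x, k x = c • g x := by
  simp only [IsSMul, hH.all, hg.ap, hk.ap, hH.sp.smul, code_eq_iff]

theorem RepF.isMul (hf : RepF N f S) (hg : RepF N g T) (hk : RepF N k U) (hH : RepH ip H₀) :
    IsMul ZM.E H₀ S T U ↔ ∀ x, k x = f (g x) := by
  simp only [IsMul, hH.all, hf.ap, hg.ap, hk.ap, code_eq_iff]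

theorem RepF.isAdj (hg : RepF N g T) (hk : RepF N k U) (hH : RepH ip H₀) :
    IsAdj ZM.E H₀ T U ↔ ∀ x y, ip (k x) y = ip x (g y) := by
  constructor
  · intro h x y
    have := h _ _ (hH.sp.car.code_mem x) (hH.sp.car.code_mem y)
    rw [hk.ap, hg.ap, hH.inner, hH.inner] at this
    exact code_injT this
  · intro h x y hx hy
    obtain ⟨a, rfl⟩ := hH.sp.car.exT hx
    obtain ⟨b, rfl⟩ := hH.sp.car.exT hy
    rw [hk.ap, hg.ap, hH.inner, hH.inner, h]

theorem RepH.inBall (hH : RepH ip H₀) (hR : RepR R R₀) {P : N → Prop} :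
    (∀ x, InBall ZM.E R₀ H₀ x → P x) ↔ ∀ a : H, nm a ≤ 1 → P (code N a) := by
  constructor
  · intro h a ha
    refine h _ ⟨hH.sp.car.code_mem a, ?_⟩
    rwa [hH.sp.norm, hR.one, hR.le]
  · rintro h x ⟨hx, h1⟩
    obtain ⟨a, rfl⟩ := hH.sp.car.exT hx
    rw [hH.sp.norm, hR.one, hR.le] at h1
    exact h a h1

theorem RepR.allPos (hR : RepR R R₀) {P : N → Prop} :
    (∀ ε, R₀.Pos ZM.E ε → P ε) ↔ ∀ e : R, 0 < e → P (code N e) :=
  ⟨fun h e he => h _ (hR.pos.2 ⟨e, he, rfl⟩), fun h x hx => by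
    obtain ⟨e, he, rfl⟩ := hR.pos.1 hx
    exact h e he⟩

theorem RepF.compact (hg : RepF N g T) (hH : RepH ip H₀) (hR : RepR R R₀) :
    IsCompactOp ZM.E R₀ H₀ T ↔ ∀ e : R, 0 < e → ∃ (n : NN N) (w : NN N → H), Intl N w ∧
      ∀ x, nm x ≤ 1 → ∃ i, i < n ∧ nm (g x - w i) < e := by
  rw [IsCompactOp, RepR.allPos hR]
  refine forall_congr' fun e => forall_congr' fun _ => ⟨?_, ?_⟩
  · rintro ⟨F, hF, hFX, h⟩
    obtain ⟨s, hs, rfl⟩ := hH.sp.car.exists_set hFX
    obtain ⟨n, w, hw, rfl⟩ := (isFinite_code hs (0 : H)).1 hF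
    refine ⟨n, w, hw, fun x hx => ?_⟩
    obtain ⟨y, hy, h1⟩ := (hH.inBall hR).1 h x hx
    obtain ⟨_, ⟨i, hi, rfl⟩, rfl⟩ := (mem_code_set hs).1 hy
    rw [hg.ap, hH.sp.close hR] at h1
    exact ⟨i, hi, h1⟩
  · rintro ⟨n, w, hw, h⟩
    have h0 : Intl N (Set.Iio n) := intl_setOfT (P := fun i : NN N => i < n) (by fun_prop)
    have hs : Intl N (w '' Set.Iio n) := intl_image (DefF.ofIntl w) _
    refine ⟨_, (isFinite_code hs (0 : H)).2 ⟨n, w, hw, rfl⟩, hH.sp.car.sub_code hs,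
      (hH.inBall hR).2 fun x hx => ?_⟩
    obtain ⟨i, hi, h1⟩ := h x hx
    refine ⟨_, (mem_code_set hs).2 ⟨_, ⟨i, hi, rfl⟩, rfl⟩, ?_⟩
    rwa [hg.ap, hH.sp.close hR]

theorem RepF.unitary {f : H → L} (h : RepF N f T) (hH : RepH ip H₀) (hL : RepH jp L₀)
    (hK : RepK (CC R) (nm : CC R → R) K₀) (h1 : ∀ x y, f (x + y) = f x + f y)
    (h2 : ∀ (c : CC R) x, f (c • x) = c • f x) (h3 : Function.Surjective f)
    (h4 : ∀ x y, jp (f x) (f y) = ip x y) : IsUnitary ZM.E K₀ H₀ L₀ T := by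
  refine ⟨(h.linear hH hL hK).2 ⟨h1, h2⟩, ⟨h.isFunction hH hL, fun y hy => ?_⟩,
    fun x y hx hy => ?_⟩
  · obtain ⟨b, rfl⟩ := hL.sp.car.exT hy
    obtain ⟨a, rfl⟩ := h3 b
    refine ⟨_, hH.sp.car.code_mem a, pairMem_iff.2 ?_⟩
    rw [← h.ap]
    exact fun_op_ap (h.isFunction hH hL) (hH.sp.car.code_mem a)
  · obtain ⟨a, rfl⟩ := hH.sp.car.exT hx
    obtain ⟨b, rfl⟩ := hH.sp.car.exT hy
    rw [h.ap, h.ap, hH.inner, hL.inner, h4]

end Vale.Agent.P070ZI
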